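import Vale.Agent.P002N97.Main

/-!
# P002: integral points on character varieties in any dimension, for spaces fibred over curves
-/

open scoped Manifold

namespace Vale.Agent.Results.P002.AAAFibred

open Vale.Agent.P002D Vale.Agent.P002E Vale.Agent.P002N

/-- `S i` are compact connected Riemann surfaces, `D i` finite sets of points.
(1) Spaces with maps to the orbifold curves. (2) Locally trivial bundles over `∏ (S i ∖ D i)`.
(3) Families with singular or multiple fibres, finite branched coverings; analytic sets are thin.
(4) Holomorphic fibrations of compact complex manifolds; in (3) and (4) it is enough that the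
common kernel has a virtually solvable image in the fundamental group of the total space.
(5) Products of curves. -/
theorem result {k : ℕ} (S : Fin k → Type) [∀ i, TopologicalSpace (S i)] [∀ i, T2Space (S i)]
    [∀ i, CompactSpace (S i)] [∀ i, ConnectedSpace (S i)] [∀ i, ChartedSpace ℂ (S i)]
    [∀ i, IsManifold 𝓘(ℂ) 1 (S i)] (D : ∀ i, Set (S i)) (hD : ∀ i, (D i).Finite) :
    Fibred D ∧ Bundles D ∧ (SingularN D ∧ ThinOk) ∧ HoloN D ∧
    PathConnectedSpace ↥(bdry (∅ : Set Unit) D)ᶜ ∧
      ∀ x₀ : ↥(bdry (∅ : Set Unit) D)ᶜ, Group.FG (FundamentalGroup _ x₀) ∧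
        Q1R (discs (bdry ∅ D) (bdry ∅ D) x₀) :=
  ⟨fibredR D hD, bundles D hD, ⟨singularN D hD, thinOk⟩, holoN D hD, points D hD⟩

end Vale.Agent.Results.P002.AAAFibred
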