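import Vale.Agent.P002A30.Fin
import Vale.Agent.P002G96.Geo
import Vale.Agent.P002S14.SS
import Vale.Agent.P002C97.Jor
import Vale.Agent.P002C97.Defs2

/-!
# P002: integral points on character varieties of curves, exact classes and their closures
-/

open Matrix
open Vale.Agent.P299G40 (PN IsSmoothVariety)

namespace Vale.Agent.Results.P002.AAClosures

open Vale.Agent.P002A Vale.Agent.P002C

/-- `Z ⊆ P^N` is a smooth projective curve, `D` a finite set of its points (possibly empty),
`X = Z ∖ D`. The class of `C`, its classical and its Zariski closure and the fibre of the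
characteristic polynomial are admissible for `C`. For every presentation of `π_1(X, x₀)` with
finitely many generators, every `r`, all meridians `γ j` and quasi-unipotent `C j`, ONE number
field `L` makes the `𝓞 L`-points dense (also in every irreducible component) for all admissible
boundary conditions `T j`, so for the exact classes and for their closures; for closed `T j`
the locus is the image of all representations, semisimple or not. -/
theorem result {N : ℕ} (Z : Set (PN N)) (hZ : IsSmoothVariety 1 Z)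
    (D : Set (An Z)) (hD : D.Finite) (x₀ : ↥Dᶜ) :
    PathConnectedSpace ↥Dᶜ ∧ Group.IsFinitelyPresented (FundamentalGroup ↥Dᶜ x₀) ∧
    (∀ p ∈ D, ∃ γ, IsMeridian D x₀ p γ) ∧
    (∀ (r : ℕ) (C : SpecialLinearGroup (Fin r) ℂ), Examples C) ∧
    ∀ (ι : Type) [Finite ι] (R : Set (FreeGroup ι))
      (θ : PresentedGroup R ≃* FundamentalGroup ↥Dᶜ x₀) (r : ℕ),
      (∀ (A : Type) [CommRing A],
        (∀ ρ, ∃! x : ORep r R →+* A, IsPointOf θ ρ x) ∧
        ∀ x : ORep r R →+* A, ∃! ρ, IsPointOf θ ρ x) ∧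
      (∃ L : IntermediateField ℚ ℂ, FiniteDimensional ℚ L ∧
        DenseIn (intPts (OM r R) L) Set.univ) ∧
      ∀ (s : ℕ) (γ : Fin s → FundamentalGroup ↥Dᶜ x₀) (C : Fin s → SpecialLinearGroup (Fin r) ℂ),
        (∀ j, ∃ p ∈ D, IsMeridian D x₀ p (γ j)) → (∀ j, IsQuasiUnipotent (C j)) →
        ∃ L : IntermediateField ℚ ℂ, FiniteDimensional ℚ L ∧
          ∀ T, (∀ j, Adm (C j) (T j)) → DenseFor θ γ L T := by
  obtain ⟨h1, h2, h3, h4⟩ := final_of geo ss Z hZ D hD x₀
  refine ⟨h1, h2, h3, fun r C => ⟨adm_class C, (adm_class C).closure, adm_zarCl C, adm_fibre C,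
    isClosed_zarCl C, isClosed_fibre C⟩, fun ι _ R θ r => ?_⟩
  obtain ⟨h5, h6, h7⟩ := h4 ι R θ r
  refine ⟨h5, h6, fun s γ C hγ hC => ?_⟩
  obtain ⟨L, hL, h⟩ := one_field θ γ (fun B hB => by
    obtain ⟨L, hL, -, h⟩ := h7 s γ B hγ hB
    exact ⟨L, hL, h⟩) C hC
  exact ⟨L, hL, fun T hT =>
    ⟨(h T hT).1, (h T hT).2, fun hc => imageIn_eq θ γ T hc fun j => (hT j).2⟩⟩

end Vale.Agent.Results.P002.AAClosures
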